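import Vale.Agent.P225.Count.Defs

/-!
P225, module D: unsigned points and the permutations realised by stage moves.
-/

noncomputable section

namespace Vale.Agent.P225

open Classical

/-- Number of unsigned indices of a label: tesseral for even labels, pairs for odd ones. -/
def umult (a : ℕ) : ℕ := if a % 2 = 0 then a + 1 else (a + 1) / 2

/-- An unsigned point of the band: labels and unsigned indices. -/
@[ext]
structure UPoint where
  lbl : Lbl
  idx : Fin 3 → ℕ
  mem : lbl ∈ band
  lt : ∀ k, idx k < umult (lbl k)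

/-- A stage move: in gauge `G`, on the block with the other two labels those of `t`, exchange the
moving coordinates `(t G, i)` and `(v, j)`. -/
structure Swap where
  G : Fin 3
  t : Lbl
  v : ℕ
  i : ℕ
  j : ℕ

/-- Validity: the block is nontrivial and both coordinates belong to the band. -/
def Swap.OK (s : Swap) : Prop :=
  1 ≤ s.t (s.G + 1) ∧ 1 ≤ s.t (s.G + 2) ∧ s.t ∈ band ∧ Function.update s.t s.G s.v ∈ band ∧
    parity s.t = parity (Function.update s.t s.G s.v) ∧ s.i < umult (s.t s.G) ∧ s.j < umult s.v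

/-- The action on labels and indices. -/
def Swap.raw (s : Swap) (p : Lbl × (Fin 3 → ℕ)) : Lbl × (Fin 3 → ℕ) :=
  if p.1 (s.G + 1) = s.t (s.G + 1) ∧ p.1 (s.G + 2) = s.t (s.G + 2) then
    if p.1 s.G = s.t s.G ∧ p.2 s.G = s.i then
      (Function.update p.1 s.G s.v, Function.update p.2 s.G s.j)
    else if p.1 s.G = s.v ∧ p.2 s.G = s.j then
      (Function.update p.1 s.G (s.t s.G), Function.update p.2 s.G s.i)
    else p
  else p

/-- The action on points; the identity if the move is not valid. -/
def Swap.apply (s : Swap) (P : UPoint) : UPoint :=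
  if h : s.OK ∧ (s.raw (P.lbl, P.idx)).1 ∈ band ∧
      ∀ k, (s.raw (P.lbl, P.idx)).2 k < umult ((s.raw (P.lbl, P.idx)).1 k) then
    ⟨(s.raw (P.lbl, P.idx)).1, (s.raw (P.lbl, P.idx)).2, h.2.1, h.2.2⟩
  else P

/-- A word of moves, applied from the head. -/
def applyMoves (w : List Swap) (P : UPoint) : UPoint := w.foldl (fun Q s => s.apply Q) P

theorem raw_eq_self {s : Swap} {p : Lbl × (Fin 3 → ℕ)}
    (h : ¬(p.1 (s.G + 1) = s.t (s.G + 1) ∧ p.1 (s.G + 2) = s.t (s.G + 2))) : s.raw p = p := by
  unfold Swap.raw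
  rw [if_neg h]

theorem raw_block_eq {t p : Lbl} {G : Fin 3} (h1 : p (G + 1) = t (G + 1))
    (h2 : p (G + 2) = t (G + 2)) (x : ℕ) : Function.update p G x = Function.update t G x := by
  funext k
  fin_cases G <;> fin_cases k <;> simp_all [Function.update]

theorem raw_valid {s : Swap} (hs : s.OK) (P : UPoint) :
    (s.raw (P.lbl, P.idx)).1 ∈ band ∧
      (∀ k, (s.raw (P.lbl, P.idx)).2 k < umult ((s.raw (P.lbl, P.idx)).1 k)) ∧
      parity (s.raw (P.lbl, P.idx)).1 = parity P.lbl := by
  obtain ⟨-, -, ht, hv, hpar, hi, hj⟩ := hs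
  have key : ∀ (x c : ℕ), c < umult x → ∀ k,
      Function.update P.idx s.G c k < umult (Function.update P.lbl s.G x k) := by
    intro x c h k
    by_cases hk : k = s.G
    · subst hk; simpa using h
    · simpa [hk] using P.lt k
  unfold Swap.raw
  split_ifs with hb h h'
  · obtain ⟨h1, h2⟩ := hb
    dsimp only at h1 h2 h
    have e : P.lbl = s.t := by
      rw [← Function.update_eq_self s.G P.lbl, raw_block_eq h1 h2, h.1, Function.update_eq_self]
    refine ⟨?_, key _ _ hj, ?_⟩
    · rw [e]; exact hv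
    · rw [e]; exact hpar.symm
  · obtain ⟨h1, h2⟩ := hb
    dsimp only at h1 h2 h'
    have e : P.lbl = Function.update s.t s.G s.v := by
      rw [← raw_block_eq h1 h2, ← h'.1, Function.update_eq_self]
    refine ⟨?_, key _ _ hi, ?_⟩
    · rw [e]; simpa using ht
    · rw [e]; simpa using hpar
  · exact ⟨P.mem, P.lt, rfl⟩
  · exact ⟨P.mem, P.lt, rfl⟩

theorem apply_eq_raw {s : Swap} (hs : s.OK) (P : UPoint) :
    ((s.apply P).lbl, (s.apply P).idx) = s.raw (P.lbl, P.idx) := by
  unfold Swap.apply
  rw [dif_pos ⟨hs, (raw_valid hs P).1, (raw_valid hs P).2.1⟩]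

theorem raw_raw (s : Swap) (p : Lbl × (Fin 3 → ℕ)) : s.raw (s.raw p) = p := by
  obtain ⟨l, m⟩ := p
  by_cases hb : l (s.G + 1) = s.t (s.G + 1) ∧ l (s.G + 2) = s.t (s.G + 2)
  · by_cases h : l s.G = s.t s.G ∧ m s.G = s.i
    · have e1 : s.raw (l, m) = (Function.update l s.G s.v, Function.update m s.G s.j) := by
        simp [Swap.raw, hb, h]
      by_cases hd : s.v = s.t s.G ∧ s.j = s.i
      · have f1 : Function.update l s.G s.v = l := by rw [hd.1, ← h.1, Function.update_eq_self]
        have f2 : Function.update m s.G s.j = m := by rw [hd.2, ← h.2, Function.update_eq_self]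
        rw [f1, f2] at e1
        rw [e1, e1]
      · have f1 : Function.update l s.G (s.t s.G) = l := by rw [← h.1, Function.update_eq_self]
        have f2 : Function.update m s.G s.i = m := by rw [← h.2, Function.update_eq_self]
        rw [e1]
        simp [Swap.raw, hb, hd, f1, f2]
    · by_cases h' : l s.G = s.v ∧ m s.G = s.j
      · have e1 : s.raw (l, m) = (Function.update l s.G (s.t s.G), Function.update m s.G s.i) := by
          simp only [Swap.raw]
          rw [if_pos hb, if_neg h, if_pos h']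
        have f1 : Function.update l s.G s.v = l := by rw [← h'.1, Function.update_eq_self]
        have f2 : Function.update m s.G s.j = m := by rw [← h'.2, Function.update_eq_self]
        rw [e1]
        simp [Swap.raw, hb, f1, f2]
      · simp [Swap.raw, h, h']
  · simp [Swap.raw, hb]

theorem Swap.apply_involutive (s : Swap) : Function.Involutive s.apply := by
  intro P
  by_cases hs : s.OK
  · have h := apply_eq_raw hs (s.apply P)
    rw [apply_eq_raw hs P, raw_raw] at h
    exact UPoint.ext (congrArg Prod.fst h) (congrArg Prod.snd h)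
  · simp [Swap.apply, hs]

theorem Swap.apply_parity (s : Swap) (P : UPoint) : parity (s.apply P).lbl = parity P.lbl := by
  by_cases hs : s.OK
  · have h : (s.apply P).lbl = (s.raw (P.lbl, P.idx)).1 := congrArg Prod.fst (apply_eq_raw hs P)
    rw [h]
    exact (raw_valid hs P).2.2
  · simp [Swap.apply, hs]

/-- The labels of the two other coordinates of a block do not match: the point stays. -/
theorem apply_fix {s : Swap} (hs : s.OK) {P : UPoint}
    (h : ¬(P.lbl (s.G + 1) = s.t (s.G + 1) ∧ P.lbl (s.G + 2) = s.t (s.G + 2))) :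
    s.apply P = P := by
  have e := apply_eq_raw hs P
  rw [raw_eq_self (s := s) (p := (P.lbl, P.idx)) h] at e
  exact UPoint.ext (congrArg Prod.fst e) (congrArg Prod.snd e)

/-- Neither of the two exchanged coordinates matches: the point stays. -/
theorem apply_fix' {s : Swap} (hs : s.OK) {P : UPoint}
    (h : ¬(P.lbl s.G = s.t s.G ∧ P.idx s.G = s.i)) (h' : ¬(P.lbl s.G = s.v ∧ P.idx s.G = s.j)) :
    s.apply P = P := by
  have e := apply_eq_raw hs P
  have r : s.raw (P.lbl, P.idx) = (P.lbl, P.idx) := by simp [Swap.raw, h, h']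
  rw [r] at e
  exact UPoint.ext (congrArg Prod.fst e) (congrArg Prod.snd e)

/-- The first exchanged coordinate goes to the second. -/
theorem apply_fst {s : Swap} (hs : s.OK) {P : UPoint} (hl : P.lbl = s.t) (hi : P.idx s.G = s.i) :
    (s.apply P).lbl = Function.update s.t s.G s.v ∧
      (s.apply P).idx = Function.update P.idx s.G s.j := by
  have e := apply_eq_raw hs P
  have r : s.raw (P.lbl, P.idx) =
      (Function.update s.t s.G s.v, Function.update P.idx s.G s.j) := by
    simp [Swap.raw, hl, hi]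
  rw [r] at e
  exact ⟨congrArg Prod.fst e, congrArg Prod.snd e⟩

/-- The second exchanged coordinate goes to the first. -/
theorem apply_snd {s : Swap} (hs : s.OK) {P : UPoint} (hl : P.lbl = Function.update s.t s.G s.v)
    (hj : P.idx s.G = s.j) :
    (s.apply P).lbl = s.t ∧ (s.apply P).idx = Function.update P.idx s.G s.i := by
  have e := apply_eq_raw hs P
  have b1 : P.lbl (s.G + 1) = s.t (s.G + 1) := by
    rw [hl]; exact Function.update_of_ne (by omega) _ _
  have b2 : P.lbl (s.G + 2) = s.t (s.G + 2) := by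
    rw [hl]; exact Function.update_of_ne (by omega) _ _
  have bG : P.lbl s.G = s.v := by rw [hl, Function.update_self]
  have r : s.raw (P.lbl, P.idx) = (s.t, Function.update P.idx s.G s.i) := by
    by_cases hd : s.v = s.t s.G ∧ s.j = s.i
    · simp [Swap.raw, b1, b2, bG, hj, hd, hl]
    · simp [Swap.raw, b1, b2, bG, hj, hd, hl]
  rw [r] at e
  exact ⟨congrArg Prod.fst e, congrArg Prod.snd e⟩

theorem move_facts {t u : Lbl} (ht : t ∈ band) (hu : u ∈ band) {G : Fin 3} (h : Move G t u) :
    1 ≤ t (G + 1) ∧ 1 ≤ t (G + 2) ∧ parity t = parity u ∧ u = Function.update t G (u G) := by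
  obtain ⟨⟨ht1, ht2, ht3, ht4⟩, -⟩ := mem_band.1 ht
  obtain ⟨⟨hu1, hu2, hu3, hu4⟩, -⟩ := mem_band.1 hu
  obtain ⟨ho, hn⟩ := h
  rw [Nat.even_iff] at ht1 hu1
  have h0 := ho 0; have h1 := ho 1; have h2 := ho 2
  refine ⟨?_, ?_, ?_, ?_⟩
  · fin_cases G <;> simp at * <;> omega
  · fin_cases G <;> simp at * <;> omega
  · funext k
    have : t k % 2 = u k % 2 := by fin_cases G <;> fin_cases k <;> simp at * <;> omega
    simp [parity, this]
  · funext k
    by_cases hk : k = G
    · subst hk; simp
    · simp [hk, ho k hk]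

/-- The move taking `P` to the labels `u` and a prescribed index. -/
def step (P : UPoint) (G : Fin 3) (u : Lbl) (j : ℕ) : Swap := ⟨G, P.lbl, u G, P.idx G, j⟩

theorem step_ok {P : UPoint} {G : Fin 3} {u : Lbl} (hu : u ∈ band) (h : Move G P.lbl u) {j : ℕ}
    (hj : j < umult (u G)) : (step P G u j).OK := by
  obtain ⟨a, b, c, d⟩ := move_facts P.mem hu h
  refine ⟨a, b, P.mem, ?_, ?_, P.lt G, hj⟩
  · show Function.update P.lbl G (u G) ∈ band
    rw [← d]; exact hu
  · show parity P.lbl = parity (Function.update P.lbl G (u G))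
    rw [← d]; exact c

theorem step_apply {P : UPoint} {G : Fin 3} {u : Lbl} (hu : u ∈ band) (h : Move G P.lbl u) {j : ℕ}
    (hj : j < umult (u G)) :
    ((step P G u j).apply P).lbl = u ∧
      ((step P G u j).apply P).idx = Function.update P.idx G j := by
  obtain ⟨e1, e2⟩ := apply_fst (step_ok hu h hj) (P := P) rfl rfl
  exact ⟨e1.trans (move_facts P.mem hu h).2.2.2.symm, e2⟩

/-- The exchange of two indices inside a label. -/
def idxSwap (P : UPoint) (G : Fin 3) (j : ℕ) : Swap := ⟨G, P.lbl, P.lbl G, P.idx G, j⟩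

theorem idxSwap_ok {P : UPoint} {G : Fin 3} (h1 : 1 ≤ P.lbl (G + 1)) (h2 : 1 ≤ P.lbl (G + 2))
    {j : ℕ} (hj : j < umult (P.lbl G)) : (idxSwap P G j).OK := by
  refine ⟨h1, h2, P.mem, ?_, ?_, P.lt G, hj⟩ <;> simp [idxSwap, P.mem]

theorem idxSwap_apply {P : UPoint} {G : Fin 3} (h1 : 1 ≤ P.lbl (G + 1)) (h2 : 1 ≤ P.lbl (G + 2))
    {j : ℕ} (hj : j < umult (P.lbl G)) :
    ((idxSwap P G j).apply P).lbl = P.lbl ∧
      ((idxSwap P G j).apply P).idx = Function.update P.idx G j := by
  obtain ⟨e1, e2⟩ := apply_fst (idxSwap_ok h1 h2 hj) (P := P) rfl rfl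
  exact ⟨e1.trans (Function.update_eq_self _ _), e2⟩

theorem applyMoves_cons (s : Swap) (w : List Swap) (P : UPoint) :
    applyMoves (s :: w) P = applyMoves w (s.apply P) := rfl

theorem applyMoves_append (w w' : List Swap) (P : UPoint) :
    applyMoves (w ++ w') P = applyMoves w' (applyMoves w P) := by
  simp [applyMoves, List.foldl_append]

theorem applyMoves_parity (w : List Swap) (P : UPoint) :
    parity (applyMoves w P).lbl = parity P.lbl := by
  induction w generalizing P with
  | nil => rfl
  | cons s w ih => rw [applyMoves_cons, ih, s.apply_parity]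

theorem applyMoves_reverse (w : List Swap) (P : UPoint) :
    applyMoves w.reverse (applyMoves w P) = P := by
  induction w generalizing P with
  | nil => rfl
  | cons s w ih =>
    rw [List.reverse_cons, applyMoves_append, applyMoves_cons s w, ih, applyMoves_cons]
    exact s.apply_involutive P

/-- Reachable by valid moves. -/
def Reaches (P Q : UPoint) : Prop := ∃ w : List Swap, (∀ s ∈ w, s.OK) ∧ applyMoves w P = Q

theorem Reaches.trans {P Q R : UPoint} (h : Reaches P Q) (h' : Reaches Q R) : Reaches P R := by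
  obtain ⟨w, hw, rfl⟩ := h
  obtain ⟨w', hw', rfl⟩ := h'
  exact ⟨w ++ w', fun s hs => (List.mem_append.1 hs).elim (hw s) (hw' s), applyMoves_append _ _ _⟩

theorem Reaches.single {P : UPoint} {s : Swap} (hs : s.OK) : Reaches P (s.apply P) :=
  ⟨[s], by simpa using hs, rfl⟩

theorem umult_pos (a : ℕ) : 0 < umult a := by
  unfold umult; split_ifs <;> omega

/-- Any index can be changed. -/
theorem reaches_setIdx (P : UPoint) (k : Fin 3) {i : ℕ} (hi : i < umult (P.lbl k)) :
    ∃ Q, Reaches P Q ∧ Q.lbl = P.lbl ∧ Q.idx = Function.update P.idx k i := by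
  by_cases h2 : 2 ≤ P.lbl k
  · obtain ⟨u, path, v, hv, hmv⟩ := band_free P.mem k h2
    have main : ∀ t, Relation.ReflTransGen (StepOff k) t u → ∀ P : UPoint, P.lbl = t → ∀ i,
        i < umult (P.lbl k) →
          ∃ Q, Reaches P Q ∧ Q.lbl = P.lbl ∧ Q.idx = Function.update P.idx k i := by
      intro t ht
      induction ht using Relation.ReflTransGen.head_induction_on with
      | refl =>
        intro P hP i hi
        obtain ⟨a, b, -, -⟩ := move_facts P.mem hv (G := k) (by rw [hP]; exact hmv)
        exact ⟨_, .single (idxSwap_ok a b hi), idxSwap_apply a b hi⟩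
      | @head t t' hstep _ ih =>
        intro P hP i hi
        obtain ⟨-, ht', j, hj, hm⟩ := hstep
        rw [← hP] at hm
        have ok := step_ok ht' hm (umult_pos (t' j))
        obtain ⟨l1, m1⟩ := step_apply ht' hm (umult_pos (t' j))
        have hk : t' k = P.lbl k := hm.1 k hj.symm
        obtain ⟨Q, hQ, lQ, mQ⟩ := ih _ l1 i (by rw [l1, hk]; exact hi)
        obtain ⟨l3, m3⟩ := apply_snd ok (P := Q)
          (by show Q.lbl = Function.update P.lbl j (t' j)
              rw [lQ, l1]; exact (move_facts P.mem ht' hm).2.2.2)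
          (by show Q.idx j = 0
              rw [mQ, m1, Function.update_of_ne hj, Function.update_self])
        refine ⟨_, ((Reaches.single ok).trans hQ).trans (.single ok), l3, ?_⟩
        rw [m3, mQ, m1]
        show Function.update (Function.update (Function.update P.idx j 0) k i) j (P.idx j) = _
        rw [Function.update_comm hj.symm, Function.update_idem, Function.update_eq_self]
    exact main _ path P rfl i hi
  · have h1 : umult (P.lbl k) = 1 := by unfold umult; split_ifs <;> omega
    have := P.lt k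
    refine ⟨P, ⟨[], by simp, rfl⟩, rfl, ?_⟩
    rw [show i = P.idx k by omega, Function.update_eq_self]

/-- The labels can be connected. -/
theorem reaches_lbl {t u : Lbl} (ht : t ∈ band) (hu : u ∈ band) (hp : parity t = parity u)
    (P : UPoint) (hP : P.lbl = t) : ∃ Q, Reaches P Q ∧ Q.lbl = u := by
  have path := band_connected ht hu hp
  clear ht hp
  induction path using Relation.ReflTransGen.head_induction_on generalizing P with
  | refl => exact ⟨P, ⟨[], by simp, rfl⟩, hP⟩
  | @head t t' hstep _ ih =>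
    obtain ⟨-, ht', j, hm⟩ := hstep
    rw [← hP] at hm
    obtain ⟨Q, hQ, lQ⟩ := ih _ (step_apply ht' hm (umult_pos (t' j))).1
    exact ⟨Q, (Reaches.single (step_ok ht' hm (umult_pos _))).trans hQ, lQ⟩

/-- The moves act transitively on each parity class. -/
theorem moves_transitive {P Q : UPoint} (h : parity P.lbl = parity Q.lbl) :
    ∃ w : List Swap, (∀ s ∈ w, s.OK) ∧ applyMoves w P = Q := by
  obtain ⟨A, hA, lA⟩ := reaches_lbl P.mem Q.mem h P rfl
  obtain ⟨B, hB, lB, mB⟩ := reaches_setIdx A 0 (i := Q.idx 0) (by rw [lA]; exact Q.lt 0)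
  obtain ⟨C, hC, lC, mC⟩ := reaches_setIdx B 1 (i := Q.idx 1) (by rw [lB, lA]; exact Q.lt 1)
  obtain ⟨D, hD, lD, mD⟩ := reaches_setIdx C 2 (i := Q.idx 2) (by rw [lC, lB, lA]; exact Q.lt 2)
  have e : D = Q := by
    refine UPoint.ext (by rw [lD, lC, lB, lA]) ?_
    funext x
    rw [mD, mC, mB]
    fin_cases x <;> simp [Function.update]
  exact e ▸ (((hA.trans hB).trans hC).trans hD)

/-- A slot pair: one coordinate differs in label, the lower level first. -/
def IsSlotPair (G : Fin 3) (X Y : UPoint) : Prop :=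
  Move G X.lbl Y.lbl ∧ cas4 X.lbl < cas4 Y.lbl ∧ (∀ k, k ≠ G → X.idx k = Y.idx k) ∧
    1 ≤ X.lbl (G + 1) ∧ 1 ≤ X.lbl (G + 2)

/-- Both points are moved by one word. -/
def Reaches2 (P Q P' Q' : UPoint) : Prop :=
  ∃ w : List Swap, (∀ s ∈ w, s.OK) ∧ applyMoves w P = P' ∧ applyMoves w Q = Q'

theorem Reaches2.trans {P Q A B C D : UPoint} (h : Reaches2 P Q A B) (h' : Reaches2 A B C D) :
    Reaches2 P Q C D := by
  obtain ⟨w, hw, rfl, rfl⟩ := h
  obtain ⟨w', hw', rfl, rfl⟩ := h'
  exact ⟨w ++ w', fun s hs => (List.mem_append.1 hs).elim (hw s) (hw' s),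
    applyMoves_append _ _ _, applyMoves_append _ _ _⟩

theorem Reaches2.single {P Q : UPoint} {s : Swap} (hs : s.OK) :
    Reaches2 P Q (s.apply P) (s.apply Q) :=
  ⟨[s], by simpa using hs, rfl, rfl⟩

theorem Reaches2.symm {P Q A B : UPoint} (h : Reaches2 P Q A B) : Reaches2 Q P B A := by
  obtain ⟨w, hw, hA, hB⟩ := h
  exact ⟨w, hw, hB, hA⟩

theorem Move.symm {G : Fin 3} {t u : Lbl} (h : Move G t u) : Move G u t :=
  ⟨fun i hi => (h.1 i hi).symm, h.2.symm⟩

theorem Move.cas4_ne {G : Fin 3} {t u : Lbl} (h : Move G t u) : cas4 t ≠ cas4 u := by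
  obtain ⟨ho, hn⟩ := h
  intro he
  apply hn
  have h0 := ho 0; have h1 := ho 1; have h2 := ho 2
  simp only [cas4, Fin.sum_univ_three] at he
  fin_cases G <;> simp at * <;> nlinarith

/-- The point with the nonzero moving label takes over the other indices of its partner. -/
theorem equalize {G : Fin 3} {A B : UPoint} (h : Move G A.lbl B.lbl) (hA : 1 ≤ A.lbl G) :
    ∃ C, Reaches2 A B C B ∧ C.lbl = A.lbl ∧ ∀ k, k ≠ G → C.idx k = B.idx k := by
  obtain ⟨a, b, -, -⟩ := move_facts A.mem B.mem h
  have one : ∀ (A' : UPoint) (k : Fin 3), A'.lbl = A.lbl → k ≠ G →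
      ∃ C, Reaches2 A' B C B ∧ C.lbl = A.lbl ∧ C.idx = Function.update A'.idx k (B.idx k) := by
    intro A' k hl hk
    have pos : 1 ≤ A'.lbl (k + 1) ∧ 1 ≤ A'.lbl (k + 2) := by
      rw [hl]; fin_cases G <;> fin_cases k <;> simp at * <;> omega
    have hi : B.idx k < umult (A'.lbl k) := by rw [hl, ← h.1 k hk]; exact B.lt k
    have ok := idxSwap_ok pos.1 pos.2 hi
    obtain ⟨l, m⟩ := idxSwap_apply pos.1 pos.2 hi
    have hB : (idxSwap A' k (B.idx k)).apply B = B := by
      refine apply_fix ok fun e => ?_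
      simp only [idxSwap, hl] at e
      have := h.2
      fin_cases G <;> fin_cases k <;> simp at * <;> omega
    refine ⟨_, ?_, l.trans hl, m⟩
    simpa [hB] using Reaches2.single (P := A') (Q := B) ok
  obtain ⟨C, r1, l1, m1⟩ := one A (G + 1) rfl (by omega)
  obtain ⟨D, r2, l2, m2⟩ := one C (G + 2) l1 (by omega)
  refine ⟨D, r1.trans r2, l2, fun k hk => ?_⟩
  rw [m2, m1]
  fin_cases G <;> fin_cases k <;> simp [Function.update] at *

/-- Two points with one label different reach a slot pair. -/
theorem slot_of_move {G : Fin 3} {P Q : UPoint} (h : Move G P.lbl Q.lbl) :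
    ∃ X Y, Reaches2 P Q X Y ∧ IsSlotPair G X Y := by
  obtain ⟨A, B, r, hm, hidx⟩ : ∃ A B, Reaches2 P Q A B ∧ Move G A.lbl B.lbl ∧
      ∀ k, k ≠ G → A.idx k = B.idx k := by
    by_cases h0 : 1 ≤ P.lbl G
    · obtain ⟨C, r, l, m⟩ := equalize h h0
      exact ⟨C, Q, r, l ▸ h, m⟩
    · obtain ⟨C, r, l, m⟩ := equalize h.symm (by have := h.2; omega)
      exact ⟨P, C, r.symm, l ▸ h, fun k hk => (m k hk).symm⟩
  obtain ⟨a, b, -, -⟩ := move_facts A.mem B.mem hm
  obtain ⟨a', b', -, -⟩ := move_facts B.mem A.mem hm.symm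
  rcases lt_or_gt_of_ne hm.cas4_ne with hlt | hgt
  · exact ⟨A, B, r, hm, hlt, hidx, a, b⟩
  · have hj := B.lt G
    have ok := step_ok B.mem hm hj
    obtain ⟨l1, m1⟩ := step_apply B.mem hm hj
    obtain ⟨l2, m2⟩ := apply_snd ok (P := B) (move_facts A.mem B.mem hm).2.2.2 rfl
    have eA : (step A G B.lbl (B.idx G)).apply A = B := by
      refine UPoint.ext l1 ?_
      rw [m1]
      funext k
      by_cases hk : k = G
      · subst hk; simp
      · simp [hk, hidx k hk]
    have eB : (step A G B.lbl (B.idx G)).apply B = A := by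
      refine UPoint.ext l2 ?_
      rw [m2]
      funext k
      by_cases hk : k = G
      · subst hk; simp [step]
      · simp [step, hk, hidx k hk]
    refine ⟨B, A, r.trans ?_, hm.symm, hgt, fun k hk => (hidx k hk).symm, a', b'⟩
    simpa [eA, eB] using Reaches2.single (P := A) (Q := B) ok

/-- Distinct labels of one class reach a slot pair. -/
theorem slot_of_lbl_ne {P Q : UPoint} (h : parity P.lbl = parity Q.lbl) (hne : P.lbl ≠ Q.lbl) :
    ∃ X Y G, Reaches2 P Q X Y ∧ IsSlotPair G X Y := by
  have main : ∀ t, Relation.ReflTransGen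
      (fun v w => v ∈ band ∧ w ∈ band ∧ ∃ j, Move j v w) t Q.lbl → ∀ P : UPoint, P.lbl = t →
      t ≠ Q.lbl → ∃ X Y G, Reaches2 P Q X Y ∧ IsSlotPair G X Y := by
    intro t path
    induction path using Relation.ReflTransGen.head_induction_on with
    | refl => intro P _ hne; exact absurd rfl hne
    | @head t t' hstep _ ih =>
      intro P hP hne
      obtain ⟨-, ht', j, hm⟩ := hstep
      rw [← hP] at hm hne
      by_cases h1 : ∃ G, Move G P.lbl Q.lbl
      · obtain ⟨G, hG⟩ := h1
        obtain ⟨X, Y, r, s⟩ := slot_of_move hG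
        exact ⟨X, Y, G, r, s⟩
      · have hj := umult_pos (t' j)
        have ok := step_ok ht' hm hj
        obtain ⟨l1, -⟩ := step_apply ht' hm hj
        have nblock : ¬(Q.lbl (j + 1) = P.lbl (j + 1) ∧ Q.lbl (j + 2) = P.lbl (j + 2)) := by
          rintro ⟨e1, e2⟩
          refine h1 ⟨j, fun i hi => ?_, fun e => hne (funext fun i => ?_)⟩
          · fin_cases j <;> fin_cases i <;> simp_all
          · fin_cases j <;> fin_cases i <;> simp_all
        have hQ : (step P j t' 0).apply Q = Q := apply_fix ok nblock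
        have hne' : t' ≠ Q.lbl := fun e => h1 ⟨j, e ▸ hm⟩
        obtain ⟨X, Y, G, r, s⟩ := ih _ l1 hne'
        refine ⟨X, Y, G, Reaches2.trans ?_ r, s⟩
        simpa [hQ] using Reaches2.single (P := P) (Q := Q) ok
  exact main _ (band_connected P.mem Q.mem h) P rfl hne

/-- Points of one triple with different indices in coordinate `k` reach a slot pair. -/
theorem slot_of_idx_ne {P Q : UPoint} (hl : P.lbl = Q.lbl) {k : Fin 3}
    (hk : P.idx k ≠ Q.idx k) : ∃ X Y G, Reaches2 P Q X Y ∧ IsSlotPair G X Y := by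
  have h2 : 2 ≤ P.lbl k := by
    have h1 := P.lt k
    have h3 := Q.lt k
    rw [← hl] at h3
    by_contra hc
    have : umult (P.lbl k) = 1 := by unfold umult; split_ifs <;> omega
    omega
  obtain ⟨u, path, v, hv, hmv⟩ := band_free P.mem k h2
  have main : ∀ t, Relation.ReflTransGen (StepOff k) t u → ∀ P Q : UPoint, P.lbl = t → Q.lbl = t →
      P.idx k ≠ Q.idx k → ∃ X Y G, Reaches2 P Q X Y ∧ IsSlotPair G X Y := by
    intro t ht
    induction ht using Relation.ReflTransGen.head_induction_on with
    | refl =>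
      intro P Q hP hQ hne
      rw [← hP] at hmv
      have hj := umult_pos (v k)
      have ok := step_ok hv hmv hj
      obtain ⟨l1, -⟩ := step_apply hv hmv hj
      have hQ' : (step P k v 0).apply Q = Q := by
        refine apply_fix' ok (fun e => hne e.2.symm) fun e => hmv.2 ?_
        have e1 : Q.lbl k = v k := e.1
        rw [← e1, hQ, hP]
      obtain ⟨X, Y, r, s⟩ := slot_of_move (P := (step P k v 0).apply P) (Q := Q)
        (G := k) (by rw [l1, hQ, ← hP]; exact hmv.symm)
      refine ⟨X, Y, k, Reaches2.trans ?_ r, s⟩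
      simpa [hQ'] using Reaches2.single (P := P) (Q := Q) ok
    | @head t t' hstep _ ih =>
      intro P Q hP hQ hne
      obtain ⟨-, ht', j, hjk, hm⟩ := hstep
      rw [← hP] at hm
      have hj := umult_pos (t' j)
      have ok := step_ok ht' hm hj
      obtain ⟨l1, m1⟩ := step_apply ht' hm hj
      by_cases he : Q.idx j = P.idx j
      · obtain ⟨l2, m2⟩ := apply_fst ok (P := Q) (hQ.trans hP.symm) he
        have l2' : ((step P j t' 0).apply Q).lbl = t' :=
          l2.trans (move_facts P.mem ht' hm).2.2.2.symm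
        obtain ⟨X, Y, G, r, s⟩ := ih _ _ l1 l2' (by
          rw [m1, m2]; simpa [step, Function.update_of_ne hjk.symm] using hne)
        exact ⟨X, Y, G, (Reaches2.single ok).trans r, s⟩
      · have hQ' : (step P j t' 0).apply Q = Q := by
          refine apply_fix' ok (fun e => he e.2) fun e => hm.2 ?_
          have e1 : Q.lbl j = t' j := e.1
          rw [← e1, hQ, hP]
        obtain ⟨X, Y, r, s⟩ := slot_of_move (P := (step P j t' 0).apply P) (Q := Q)
          (G := j) (by rw [l1, hQ, ← hP]; exact hm.symm)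
        refine ⟨X, Y, j, Reaches2.trans ?_ r, s⟩
        simpa [hQ'] using Reaches2.single (P := P) (Q := Q) ok
  exact main _ path P Q rfl hl.symm hk

/-- Every ordered pair of distinct points of a class can be moved to a slot pair. -/
theorem moves_to_slot {P Q : UPoint} (h : parity P.lbl = parity Q.lbl) (hne : P ≠ Q) :
    ∃ (w : List Swap) (G : Fin 3),
      (∀ s ∈ w, s.OK) ∧ IsSlotPair G (applyMoves w P) (applyMoves w Q) := by
  obtain ⟨X, Y, G, ⟨w, hw, rfl, rfl⟩, s⟩ : ∃ X Y G, Reaches2 P Q X Y ∧ IsSlotPair G X Y := by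
    by_cases hl : P.lbl = Q.lbl
    · obtain ⟨k, hk⟩ : ∃ k, P.idx k ≠ Q.idx k :=
        Function.ne_iff.1 fun e => hne (UPoint.ext hl e)
      exact slot_of_idx_ne hl hk
    · exact slot_of_lbl_ne h hl
  exact ⟨w, G, hw, s⟩

instance : Finite UPoint := by
  refine Finite.of_injective (fun P : UPoint =>
    ((⟨P.lbl, P.mem⟩ : {t // t ∈ band}),
      fun k => (⟨P.idx k % 21, Nat.mod_lt _ (by norm_num)⟩ : Fin 21))) fun P Q h => ?_
  obtain ⟨h1, h2⟩ := Prod.mk.inj h
  have hl : P.lbl = Q.lbl := congrArg Subtype.val h1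
  refine UPoint.ext hl (funext fun k => ?_)
  have hb := P.mem
  simp only [band, Finset.mem_filter, Fintype.mem_piFinset, Finset.mem_range] at hb
  have h20 := hb.1 k
  have hu : umult (P.lbl k) ≤ 21 := by unfold umult; split_ifs <;> omega
  have h3 := congrArg Fin.val (congrFun h2 k)
  have hp := P.lt k
  have hq := Q.lt k
  rw [← hl] at hq
  have h4 : P.idx k % 21 = Q.idx k % 21 := h3
  rwa [Nat.mod_eq_of_lt (by omega), Nat.mod_eq_of_lt (by omega)] at h4

/-- The permutations realised by words. -/
def moveGroup : Subgroup (Equiv.Perm UPoint) where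
  carrier := {g | ∃ w : List Swap, (∀ s ∈ w, s.OK) ∧ ∀ P, applyMoves w P = g P}
  one_mem' := ⟨[], by simp, fun _ => rfl⟩
  mul_mem' := by
    rintro a b ⟨u, hu, hu'⟩ ⟨v, hv, hv'⟩
    exact ⟨v ++ u, fun s hs => (List.mem_append.1 hs).elim (hv s) (hu s),
      fun P => by rw [applyMoves_append, hv', hu', Equiv.Perm.mul_apply]⟩
  inv_mem' := by
    rintro a ⟨u, hu, hu'⟩
    refine ⟨u.reverse, fun s hs => hu s (List.mem_reverse.1 hs), fun P => ?_⟩
    obtain ⟨Q, rfl⟩ := a.surjective P
    rw [← hu', applyMoves_reverse, hu']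
    simp

/-- The permutation of a word. -/
def wordPerm (w : List Swap) : Equiv.Perm UPoint where
  toFun := applyMoves w
  invFun := applyMoves w.reverse
  left_inv := applyMoves_reverse w
  right_inv P := by simpa using applyMoves_reverse w.reverse P

/-- The group generated by the moves is finite, so a finite periodic sequence of words visits the
points of each class equally often. -/
theorem exists_balanced_schedule : ∃ (n : ℕ) (w : ℕ → List Swap), 0 < n ∧
    (∀ m, w (m + n) = w m) ∧ (∀ m, ∀ s ∈ w m, s.OK) ∧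
    (∀ P, applyMoves ((List.range n).flatMap w) P = P) ∧
    ∀ (f : UPoint → ℝ) (P : UPoint) (S : Finset UPoint),
      (∀ Q, Q ∈ S ↔ parity Q.lbl = parity P.lbl) →
      (S.card : ℝ) * ∑ m ∈ Finset.range n, f (applyMoves ((List.range m).flatMap w) P) =
        (n : ℝ) * ∑ Q ∈ S, f Q := by
  let _ : Fintype moveGroup := Fintype.ofFinite _
  set n := Fintype.card moveGroup with hn
  have hn0 : 0 < n := Fintype.card_pos
  have : NeZero n := ⟨hn0.ne'⟩
  let e : Fin n ≃ moveGroup := (Fintype.equivFin moveGroup).symm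
  let c : ℕ → moveGroup := fun m => e (Fin.ofNat n m)
  have hw : ∀ m, ∃ w : List Swap, (∀ s ∈ w, s.OK) ∧
      ∀ P, applyMoves w P = ((c (m + 1) * (c m)⁻¹ : moveGroup) : Equiv.Perm UPoint) P :=
    fun m => (c (m + 1) * (c m)⁻¹).2
  choose w hw1 hw2 using hw
  have per : ∀ m, c (m + n) = c m := fun m => by
    simp only [c]; congr 1; ext; simp [Nat.add_mod_right]
  have pre : ∀ m P, applyMoves ((List.range m).flatMap w) P =
      ((c m * (c 0)⁻¹ : moveGroup) : Equiv.Perm UPoint) P := by
    intro m P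
    induction m with
    | zero => simp [applyMoves]
    | succ m ih =>
      rw [List.range_succ, List.flatMap_append, applyMoves_append, ih, List.flatMap_singleton, hw2,
        ← Equiv.Perm.mul_apply, ← Subgroup.coe_mul,
        show (c (m + 1) * (c m)⁻¹) * (c m * (c 0)⁻¹) = c (m + 1) * (c 0)⁻¹ by group]
  refine ⟨n, fun m => w (m % n), hn0, fun m => by simp, fun m => hw1 _, ?_, ?_⟩
  all_goals
    have flat : ∀ m ≤ n, (List.range m).flatMap (fun m => w (m % n)) = (List.range m).flatMap w := by
      intro m hm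
      simp only [List.flatMap]
      congr 1
      refine List.map_congr_left fun a ha => ?_
      rw [Nat.mod_eq_of_lt (lt_of_lt_of_le (List.mem_range.1 ha) hm)]
  · intro P
    rw [flat n le_rfl, pre, show c n = c 0 by simpa using per 0, mul_inv_cancel]
    rfl
  · intro f P S hS
    have e1 : ∑ m ∈ Finset.range n, f (applyMoves ((List.range m).flatMap fun m => w (m % n)) P) =
        ∑ g : moveGroup, f ((g : Equiv.Perm UPoint) P) := by
      rw [Finset.sum_congr rfl fun m hm => by rw [flat m (Finset.mem_range.1 hm).le, pre],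
        ← Fin.sum_univ_eq_sum_range
          (fun m => f (((c m * (c 0)⁻¹ : moveGroup) : Equiv.Perm UPoint) P)) n]
      exact Fintype.sum_equiv (e.trans (Equiv.mulRight (c 0)⁻¹)) _ _ fun i => by
        simp [c]
    rw [e1]
    have hperm : ∀ g : moveGroup, ∀ Q,
        parity ((g : Equiv.Perm UPoint) Q).lbl = parity Q.lbl := by
      intro g Q
      obtain ⟨u, -, hu⟩ := g.2
      rw [← hu, applyMoves_parity]
    have hsame : ∀ Q ∈ S, ∑ g : moveGroup, f ((g : Equiv.Perm UPoint) Q) =
        ∑ g : moveGroup, f ((g : Equiv.Perm UPoint) P) := by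
      intro Q hQ
      obtain ⟨u, hu, rfl⟩ := moves_transitive ((hS Q).1 hQ).symm
      let g0 : moveGroup := ⟨wordPerm u, u, hu, fun _ => rfl⟩
      exact Fintype.sum_equiv (Equiv.mulRight g0) _ _ fun g => rfl
    calc (S.card : ℝ) * ∑ g : moveGroup, f ((g : Equiv.Perm UPoint) P)
        = ∑ Q ∈ S, ∑ g : moveGroup, f ((g : Equiv.Perm UPoint) Q) := by
          rw [Finset.sum_congr rfl hsame, Finset.sum_const, nsmul_eq_mul]
      _ = ∑ g : moveGroup, ∑ Q ∈ S, f ((g : Equiv.Perm UPoint) Q) := Finset.sum_comm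
      _ = ∑ _g : moveGroup, ∑ Q ∈ S, f Q := Finset.sum_congr rfl fun g _ =>
          Finset.sum_equiv (g : Equiv.Perm UPoint)
            (fun Q => by rw [hS, hS, hperm]) fun Q _ => rfl
      _ = _ := by rw [Finset.sum_const, Finset.card_univ, nsmul_eq_mul]

end Vale.Agent.P225
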